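import Vale.Agent.Lib.P262.Gadget3

/-!
P262: for every `d ≥ 3` there are `d + 17` vectors in the Euclidean unit ball of `ℝ^d` such
that every signing has an initial sum of squared norm at least `d + 4/3`.
Hence `σ(d) ≥ sqrt (d + 4/3)` for all `d ≥ 3`; in particular `σ(3) ≥ sqrt (13/3) > 2`.
-/

namespace Vale.Agent.Results.P262.LowerBoundFourThirds

open Finset Vale.Agent.Lib.P262

theorem norm_single_one {d : ℕ} (c : Fin d) :
    ‖(EuclideanSpace.single c (1 : ℝ) : EuclideanSpace ℝ (Fin d))‖ = 1 := by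
  rw [EuclideanSpace.single, PiLp.norm_single]; simp

theorem inner_single_ne {d : ℕ} {c c' : Fin d} (h : c ≠ c') :
    inner ℝ (EuclideanSpace.single c (1 : ℝ) : EuclideanSpace ℝ (Fin d))
      (EuclideanSpace.single c' (1 : ℝ)) = 0 := by
  rw [EuclideanSpace.inner_single_left, PiLp.single_apply, if_neg h]
  simp

theorem euclid_forces3 (d : ℕ) : ∀ j : ℕ, 3 + j ≤ d →
    ∃ v : ℕ → EuclideanSpace ℝ (Fin d), (∀ i, ‖v i‖ ≤ 1) ∧
      (∀ i (c : Fin d), 3 + j ≤ c.val → v i c = 0) ∧
      Forces v (20 + j) (13 / 3 + j) := by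
  intro j
  induction j with
  | zero =>
    intro hd
    obtain ⟨a, hadef⟩ : ∃ a : EuclideanSpace ℝ (Fin d),
        a = EuclideanSpace.single (⟨0, by omega⟩ : Fin d) (1 : ℝ) := ⟨_, rfl⟩
    obtain ⟨b, hbdef⟩ : ∃ b : EuclideanSpace ℝ (Fin d),
        b = EuclideanSpace.single (⟨1, by omega⟩ : Fin d) (1 : ℝ) := ⟨_, rfl⟩
    obtain ⟨c, hcdef⟩ : ∃ c : EuclideanSpace ℝ (Fin d),
        c = EuclideanSpace.single (⟨2, by omega⟩ : Fin d) (1 : ℝ) := ⟨_, rfl⟩
    have ha : ‖a‖ = 1 := by rw [hadef]; exact norm_single_one _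
    have hb : ‖b‖ = 1 := by rw [hbdef]; exact norm_single_one _
    have hc : ‖c‖ = 1 := by rw [hcdef]; exact norm_single_one _
    have hab : inner ℝ a b = 0 := by
      rw [hadef, hbdef]; exact inner_single_ne (by simp [Fin.ext_iff])
    have hac : inner ℝ a c = 0 := by
      rw [hadef, hcdef]; exact inner_single_ne (by simp [Fin.ext_iff])
    have hbc : inner ℝ b c = 0 := by
      rw [hbdef, hcdef]; exact inner_single_ne (by simp [Fin.ext_iff])
    refine ⟨fun i => realVec a b c 1000 (vecOf gadget3 i), ?_, ?_, ?_⟩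
    · intro i
      have h1 := norm_sq_realVec ha hb hc hab hac hbc 1000 (by norm_num) (vecOf gadget3 i)
      have h2 : nsq (vecOf gadget3 i) ≤ 1000000 :=
        nsq_vecOf_le gadget3 1000000 (by norm_num) gadget3_norm i
      have h3 : ((nsq (vecOf gadget3 i) : ℤ) : ℝ) ≤ 1000000 := by exact_mod_cast h2
      have h4 : ‖realVec a b c 1000 (vecOf gadget3 i)‖ ^ 2 ≤ 1 := by
        rw [h1, div_le_one (by norm_num)]
        push_cast
        linarith
      have h5 : 0 ≤ ‖realVec a b c 1000 (vecOf gadget3 i)‖ := norm_nonneg _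
      nlinarith
    · intro i cc hcc
      have hc0 : cc ≠ (⟨0, by omega⟩ : Fin d) := by
        intro h; rw [h] at hcc; simp at hcc
      have hc1 : cc ≠ (⟨1, by omega⟩ : Fin d) := by
        intro h; rw [h] at hcc; simp at hcc
      have hc2 : cc ≠ (⟨2, by omega⟩ : Fin d) := by
        intro h; rw [h] at hcc; simp at hcc
      have hacc : a cc = 0 := by rw [hadef, PiLp.single_apply, if_neg hc0]
      have hbcc : b cc = 0 := by rw [hbdef, PiLp.single_apply, if_neg hc1]
      have hccc : c cc = 0 := by rw [hcdef, PiLp.single_apply, if_neg hc2]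
      show (realVec a b c 1000 (vecOf gadget3 i)) cc = 0
      unfold realVec
      simp [hacc, hbcc, hccc]
    · have h := forces_of_check ha hb hc hab hac hbc 1000 (by norm_num) 4333334 gadget3
        gadget3_check
      rw [gadget3_length] at h
      apply forces_mono h
      norm_num
  | succ j ih =>
    intro hd
    obtain ⟨v, hnorm, hzero, hF⟩ := ih (by omega)
    obtain ⟨e, hedef⟩ : ∃ e : EuclideanSpace ℝ (Fin d),
        e = EuclideanSpace.single (⟨3 + j, by omega⟩ : Fin d) (1 : ℝ) := ⟨_, rfl⟩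
    have he : ‖e‖ = 1 := by rw [hedef]; exact norm_single_one _
    have horth : ∀ i, inner ℝ e (v i) = 0 := by
      intro i
      rw [hedef, EuclideanSpace.inner_single_left, hzero i _ (le_refl _)]
      simp
    refine ⟨prepend e v, ?_, ?_, ?_⟩
    · intro i
      cases i with
      | zero => exact he.le
      | succ i => exact hnorm i
    · intro i cc hcc
      cases i with
      | zero =>
        show e cc = 0
        have hne : cc ≠ (⟨3 + j, by omega⟩ : Fin d) := by
          intro h; rw [h] at hcc; simp at hcc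
        rw [hedef, PiLp.single_apply, if_neg hne]
      | succ i => exact hzero i cc (by omega)
    · have h := forces_prepend he horth hF
      have e1 : 20 + (j + 1) = 20 + j + 1 := by ring
      have e2 : (13 : ℝ) / 3 + ((j + 1 : ℕ) : ℝ) = 13 / 3 + j + 1 := by
        push_cast; ring
      rw [e1, e2]
      exact h

/-- For every `d ≥ 3` there are `d + 17` vectors in the Euclidean unit ball of `ℝ^d` such that
every choice of signs has an initial sum of squared Euclidean norm at least `d + 4/3`. -/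
theorem result (d : ℕ) (hd : 3 ≤ d) :
    ∃ v : Fin (d + 17) → EuclideanSpace ℝ (Fin d), (∀ i, ‖v i‖ ≤ 1) ∧
      ∀ ε : Fin (d + 17) → ℝ, (∀ i, ε i = 1 ∨ ε i = -1) →
        ∃ k : ℕ, k ≤ d + 17 ∧
          (d : ℝ) + 4 / 3 ≤ ‖∑ i : Fin (d + 17) with i.val < k, ε i • v i‖ ^ 2 := by
  obtain ⟨v, hnorm, -, hF⟩ := euclid_forces3 d (d - 3) (by omega)
  have hN : 20 + (d - 3) = d + 17 := by omega
  have hT : (13 : ℝ) / 3 + ((d - 3 : ℕ) : ℝ) = (d : ℝ) + 4 / 3 := by
    rw [Nat.cast_sub hd]; push_cast; ring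
  rw [hN, hT] at hF
  exact forces_to_fin hF hnorm

end Vale.Agent.Results.P262.LowerBoundFourThirds
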