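import Vale.Agent.Lib.P262.PlanarCertB
import Vale.Agent.Lib.P262.PlaneNest
import Vale.Agent.Lib.P262.Bridge
import Vale.Agent.Lib.P262.Check

/-!
P262: signed initial sums of squared norm at least five fourths of the dimension.

For every `d` there are finitely many vectors in the Euclidean unit ball of `ℝ^d` such that
every signing has an initial sum of squared norm at least `(5/2) * ⌊d/2⌋ + (d mod 2)`.
Hence `σ(d)^2 ≥ (5/4) d` for even `d` and `σ(d)^2 ≥ (5/4) d - 1/4` for odd `d`.

The proof nests, along `⌊d/2⌋` orthogonal coordinate planes, one planar list with the property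
that every signed walk along it, from any starting point, reaches squared norm greater than
`5/2` (so its set of positions lies in no disk of radius `sqrt (5/2)`).
-/

namespace Vale.Agent.Results.P262.PlanarFiveHalves

open Finset Vale.Agent.Lib.P262

theorem result (d : ℕ) :
    ∃ (N : ℕ) (v : Fin N → EuclideanSpace ℝ (Fin d)), (∀ i, ‖v i‖ ≤ 1) ∧
      ∀ ε : Fin N → ℝ, (∀ i, ε i = 1 ∨ ε i = -1) →
        ∃ t : ℕ, t ≤ N ∧
          (5 / 2 : ℝ) * ((d / 2 : ℕ) : ℝ) + ((d % 2 : ℕ) : ℝ) ≤
            ‖∑ i : Fin N with i.val < t, ε i • v i‖ ^ 2 := by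
  obtain ⟨l, hnorm, hsupp, hex⟩ :=
    exits_of_planar (5 / 2) planarListB planarListB_norm planar_universalB d (d / 2) (by omega)
  have hF := forces_of_exits _ l hex
  have hvn : ∀ i : ℕ, ‖l.getD i 0‖ ≤ 1 := by
    intro i
    by_cases hi : i < l.length
    · rw [List.getD_eq_getElem _ _ hi]
      exact hnorm _ (List.getElem_mem hi)
    · rw [List.getD_eq_default _ _ (by omega)]
      simp
  have hvs : ∀ (i : ℕ) (c : Fin d), 2 * (d / 2) ≤ c.val → l.getD i 0 c = 0 := by
    intro i c hc
    by_cases hi : i < l.length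
    · rw [List.getD_eq_getElem _ _ hi]
      exact hsupp _ (List.getElem_mem hi) c hc
    · rw [List.getD_eq_default _ _ (by omega)]
      rfl
  rcases Nat.mod_two_eq_zero_or_one d with h0 | h1
  · obtain ⟨w, hw, hforce⟩ := forces_to_fin hF hvn
    refine ⟨l.length, w, hw, ?_⟩
    intro ε hε
    obtain ⟨t, ht, hT⟩ := hforce ε hε
    refine ⟨t, ht, ?_⟩
    rw [h0]
    simpa using hT
  · have hd : d - 1 < d := by omega
    obtain ⟨e, hedef⟩ : ∃ e : EuclideanSpace ℝ (Fin d),
        e = EuclideanSpace.single (⟨d - 1, hd⟩ : Fin d) (1 : ℝ) := ⟨_, rfl⟩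
    have he : ‖e‖ = 1 := by
      rw [hedef, EuclideanSpace.single, PiLp.norm_single]; simp
    have horth : ∀ i : ℕ, inner ℝ e (l.getD i 0) = 0 := by
      intro i
      rw [hedef, EuclideanSpace.inner_single_left]
      rw [hvs i ⟨d - 1, hd⟩ (by simp only; omega)]
      simp
    have hF' := forces_prepend he horth hF
    have hvn' : ∀ i : ℕ, ‖prepend e (fun i => l.getD i 0) i‖ ≤ 1 := by
      intro i
      cases i with
      | zero => rw [prepend_zero, he]
      | succ i => rw [prepend_succ]; exact hvn i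
    obtain ⟨w, hw, hforce⟩ := forces_to_fin hF' hvn'
    refine ⟨l.length + 1, w, hw, ?_⟩
    intro ε hε
    obtain ⟨t, ht, hT⟩ := hforce ε hε
    refine ⟨t, ht, ?_⟩
    rw [h1]
    simpa using hT

end Vale.Agent.Results.P262.PlanarFiveHalves
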