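import Vale.Agent.Results.P262.LowerBoundDPlusOne
import Vale.Agent.Results.P262.LowerBoundFourThirds
import Vale.Agent.Results.P262.PlanarFiveHalves

/-!
P262: the three lower bounds for signed initial sums in one statement.

(1) For `d ≥ 2` and `N ≥ d` there are `N` vectors in the Euclidean unit ball of `ℝ^d` such that
every signing has an initial sum of squared norm at least `d + 1 - 2^(d-N)`.
(2) For `d ≥ 3` there are `d + 17` such vectors with the bound `d + 4/3`.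
(3) For every `d` there are finitely many such vectors with the bound
`(5/2) * ⌊d/2⌋ + (d mod 2)`.
-/

namespace Vale.Agent.Results.P262.CombinedLowerBounds

open Finset

theorem result :
    (∀ (d N : ℕ), 2 ≤ d → d ≤ N →
      ∃ v : Fin N → EuclideanSpace ℝ (Fin d), (∀ i, ‖v i‖ ≤ 1) ∧
        ∀ ε : Fin N → ℝ, (∀ i, ε i = 1 ∨ ε i = -1) →
          ∃ k : ℕ, k ≤ N ∧
            (d : ℝ) + 1 - (1 / 2 : ℝ) ^ (N - d) ≤
              ‖∑ i : Fin N with i.val < k, ε i • v i‖ ^ 2) ∧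
    (∀ (d : ℕ), 3 ≤ d →
      ∃ v : Fin (d + 17) → EuclideanSpace ℝ (Fin d), (∀ i, ‖v i‖ ≤ 1) ∧
        ∀ ε : Fin (d + 17) → ℝ, (∀ i, ε i = 1 ∨ ε i = -1) →
          ∃ k : ℕ, k ≤ d + 17 ∧
            (d : ℝ) + 4 / 3 ≤ ‖∑ i : Fin (d + 17) with i.val < k, ε i • v i‖ ^ 2) ∧
    (∀ (d : ℕ),
      ∃ (N : ℕ) (v : Fin N → EuclideanSpace ℝ (Fin d)), (∀ i, ‖v i‖ ≤ 1) ∧
        ∀ ε : Fin N → ℝ, (∀ i, ε i = 1 ∨ ε i = -1) →
          ∃ t : ℕ, t ≤ N ∧
            (5 / 2 : ℝ) * ((d / 2 : ℕ) : ℝ) + ((d % 2 : ℕ) : ℝ) ≤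
              ‖∑ i : Fin N with i.val < t, ε i • v i‖ ^ 2) :=
  ⟨fun d N hd hN => Vale.Agent.Results.P262.LowerBoundDPlusOne.result d N hd hN,
    fun d hd => Vale.Agent.Results.P262.LowerBoundFourThirds.result d hd,
    fun d => Vale.Agent.Results.P262.PlanarFiveHalves.result d⟩

end Vale.Agent.Results.P262.CombinedLowerBounds
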