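import Vale.Agent.Lib.P262.Spine

/-!
P262: for every `d ≥ 2` and `N ≥ d` there are `N` vectors in the Euclidean unit ball of
`ℝ^d` such that every signing has an initial sum of squared norm at least
`d + 1 - 2^(d-N)`.  Hence `σ(d,N) ≥ sqrt (d + 1 - 2^(d-N))` and `σ(d) ≥ sqrt (d+1)`.
-/

namespace Vale.Agent.Results.P262.LowerBoundDPlusOne

open Finset Vale.Agent.Lib.P262

theorem norm_single_one {d : ℕ} (c : Fin d) :
    ‖(EuclideanSpace.single c (1 : ℝ) : EuclideanSpace ℝ (Fin d))‖ = 1 := by
  rw [EuclideanSpace.single, PiLp.norm_single]; simp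

theorem euclid_forces (d m : ℕ) : ∀ j : ℕ, 2 + j ≤ d →
    ∃ v : ℕ → EuclideanSpace ℝ (Fin d), (∀ i, ‖v i‖ = 1) ∧
      (∀ i (c : Fin d), 2 + j ≤ c.val → v i c = 0) ∧
      Forces v (m + 2 + j) (3 - (1 / 2 : ℝ) ^ m + j) := by
  intro j
  induction j with
  | zero =>
    intro hd
    obtain ⟨a, hadef⟩ : ∃ a : EuclideanSpace ℝ (Fin d),
        a = EuclideanSpace.single (⟨0, by omega⟩ : Fin d) (1 : ℝ) := ⟨_, rfl⟩
    obtain ⟨b, hbdef⟩ : ∃ b : EuclideanSpace ℝ (Fin d),
        b = EuclideanSpace.single (⟨1, by omega⟩ : Fin d) (1 : ℝ) := ⟨_, rfl⟩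
    have ha : ‖a‖ = 1 := by rw [hadef]; exact norm_single_one _
    have hb : ‖b‖ = 1 := by rw [hbdef]; exact norm_single_one _
    have hab : inner ℝ a b = 0 := by
      rw [hadef, hbdef, EuclideanSpace.inner_single_left, PiLp.single_apply]
      simp
    obtain ⟨p, q, hunit, hF⟩ := planar_forces ha hb hab m
    refine ⟨prepend a (fun i => p i • a + q i • b), ?_, ?_, ?_⟩
    · intro i
      cases i with
      | zero => exact ha
      | succ i =>
        show ‖p i • a + q i • b‖ = 1
        have h := norm_sq_comb ha hb hab (p i) (q i)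
        rw [hunit i] at h
        have h0 : 0 ≤ ‖p i • a + q i • b‖ := norm_nonneg _
        nlinarith
    · intro i c hc
      have hc0 : c ≠ (⟨0, by omega⟩ : Fin d) := by
        intro h; rw [h] at hc; simp at hc
      have hc1 : c ≠ (⟨1, by omega⟩ : Fin d) := by
        intro h; rw [h] at hc; simp at hc
      have hac : a c = 0 := by
        rw [hadef, PiLp.single_apply, if_neg hc0]
      have hbc : b c = 0 := by
        rw [hbdef, PiLp.single_apply, if_neg hc1]
      cases i with
      | zero => exact hac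
      | succ i =>
        show (p i • a + q i • b) c = 0
        simp [hac, hbc]
    · simpa using hF
  | succ j ih =>
    intro hd
    obtain ⟨v, hnorm, hzero, hF⟩ := ih (by omega)
    obtain ⟨e, hedef⟩ : ∃ e : EuclideanSpace ℝ (Fin d),
        e = EuclideanSpace.single (⟨2 + j, by omega⟩ : Fin d) (1 : ℝ) := ⟨_, rfl⟩
    have he : ‖e‖ = 1 := by rw [hedef]; exact norm_single_one _
    have horth : ∀ i, inner ℝ e (v i) = 0 := by
      intro i
      rw [hedef, EuclideanSpace.inner_single_left, hzero i _ (le_refl _)]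
      simp
    refine ⟨prepend e v, ?_, ?_, ?_⟩
    · intro i
      cases i with
      | zero => exact he
      | succ i => exact hnorm i
    · intro i c hc
      cases i with
      | zero =>
        show e c = 0
        have hne : c ≠ (⟨2 + j, by omega⟩ : Fin d) := by
          intro h; rw [h] at hc; simp at hc
        rw [hedef, PiLp.single_apply, if_neg hne]
      | succ i => exact hzero i c (by omega)
    · have h := forces_prepend he horth hF
      have e1 : m + 2 + (j + 1) = m + 2 + j + 1 := by ring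
      have e2 : (3 : ℝ) - (1 / 2 : ℝ) ^ m + ((j + 1 : ℕ) : ℝ) = 3 - (1 / 2 : ℝ) ^ m + j + 1 := by
        push_cast; ring
      rw [e1, e2]
      exact h

theorem sum_fin_lt {E : Type*} [AddCommMonoid E] {N k : ℕ} (g : ℕ → E) :
    ∑ i : Fin N with i.val < k, g i.val = ∑ n ∈ range N with n < k, g n := by
  rw [Finset.sum_filter, Finset.sum_filter,
    Fin.sum_univ_eq_sum_range (fun n => if n < k then g n else 0) N]

/-- For `d ≥ 2` and `N ≥ d` there are `N` vectors in the Euclidean unit ball of `ℝ^d` such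
that every choice of signs has an initial sum of squared Euclidean norm at least
`d + 1 - 2^(d-N)`. -/
theorem result (d N : ℕ) (hd : 2 ≤ d) (hN : d ≤ N) :
    ∃ v : Fin N → EuclideanSpace ℝ (Fin d), (∀ i, ‖v i‖ ≤ 1) ∧
      ∀ ε : Fin N → ℝ, (∀ i, ε i = 1 ∨ ε i = -1) →
        ∃ k : ℕ, k ≤ N ∧
          (d : ℝ) + 1 - (1 / 2 : ℝ) ^ (N - d) ≤
            ‖∑ i : Fin N with i.val < k, ε i • v i‖ ^ 2 := by
  obtain ⟨v, hnorm, -, hF⟩ := euclid_forces d (N - d) (d - 2) (by omega)
  refine ⟨fun i => v i.val, fun i => (hnorm i.val).le, ?_⟩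
  intro ε hε
  obtain ⟨k, hk, hT⟩ := hF (fun n => if h : n < N then ε ⟨n, h⟩ else 1) (by
    intro n
    by_cases h : n < N
    · simp only [dif_pos h]; exact hε _
    · simp only [dif_neg h]; left; trivial)
  have hkN : k ≤ N := by omega
  refine ⟨k, hkN, ?_⟩
  have hsum : ∑ i : Fin N with i.val < k, ε i • v i.val
      = ∑ n ∈ range k, (if h : n < N then ε ⟨n, h⟩ else 1) • v n := by
    have h1 : ∑ i : Fin N with i.val < k, ε i • v i.val
        = ∑ i : Fin N with i.val < k,
            (fun n => (if h : n < N then ε ⟨n, h⟩ else 1) • v n) i.val := by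
      apply Finset.sum_congr rfl
      intro i _
      simp only [dif_pos i.isLt]
    rw [h1, sum_fin_lt (fun n => (if h : n < N then ε ⟨n, h⟩ else 1) • v n)]
    apply Finset.sum_congr _ (fun _ _ => rfl)
    ext n
    simp only [mem_filter, mem_range]
    omega
  rw [hsum]
  have hval : (3 : ℝ) - (1 / 2 : ℝ) ^ (N - d) + ((d - 2 : ℕ) : ℝ)
      = (d : ℝ) + 1 - (1 / 2 : ℝ) ^ (N - d) := by
    rw [Nat.cast_sub hd]; push_cast; ring
  rw [← hval]
  exact hT

end Vale.Agent.Results.P262.LowerBoundDPlusOne
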